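import Mathlib.Algebra.BigOperators.Ring.Finset
import Mathlib.Algebra.BigOperators.Fin
import Mathlib.Algebra.Module.Submodule.Range
import Mathlib.Algebra.Module.Pi
import Mathlib.Data.Fintype.BigOperators
import Mathlib.Data.Fin.Basic
import Mathlib.Logic.Relation
import Mathlib.Tactic

/-! # P039-B, block L3: boundary, coboundary, the sign formula. -/

namespace Vale.Agent.P039.H443

open Finset

variable {B W : Type*} [Fintype B] [Fintype W] [DecidableEq B] [DecidableEq W]
  (p : Fin 3 → B ≃ W)

/-- boundary of a 2-chain `n` on the corner `(b, c)`, directed from `b` to its face of class `c` -/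
def bd (n : W → ℤ) (b : B) (c : Fin 3) : ℤ := n (p (c + 1) b) - n (p (c + 2) b)

/-- coboundary (curl) of `u` at the white `w` -/
def cobd (u : B → Fin 3 → ℤ) (w : W) : ℤ :=
  ∑ i, (u ((p i).symm w) (i + 2) - u ((p i).symm w) (i + 1))

/-- the sign of a colour difference -/
def eps (i : Fin 3) : ℤ := if i = 1 then 1 else -1

omit [DecidableEq B] [DecidableEq W] in
theorem pairing (u : B → Fin 3 → ℤ) (n : W → ℤ) :
    ∑ b, ∑ c, u b c * bd p n b c = ∑ w, n w * cobd p u w := by
  have h1 : ∑ w, n w * cobd p u w =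
      ∑ i : Fin 3, ∑ w, (n w * u ((p i).symm w) (i + 2) - n w * u ((p i).symm w) (i + 1)) := by
    rw [Finset.sum_comm]
    refine Finset.sum_congr rfl fun w _ => ?_
    rw [cobd, Finset.mul_sum]
    exact Finset.sum_congr rfl fun i _ => mul_sub _ _ _
  have h2 : ∀ i : Fin 3,
      ∑ w, (n w * u ((p i).symm w) (i + 2) - n w * u ((p i).symm w) (i + 1)) =
      ∑ b, (n (p i b) * u b (i + 2) - n (p i b) * u b (i + 1)) := by
    intro i
    rw [← (p i).sum_comp]
    simp only [Equiv.symm_apply_apply]
  rw [h1, Finset.sum_congr rfl fun i _ => h2 i,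
    Finset.sum_comm (f := fun (i : Fin 3) (b : B) =>
      n (p i b) * u b (i + 2) - n (p i b) * u b (i + 1))]
  refine Finset.sum_congr rfl fun b _ => ?_
  rw [Fin.sum_univ_three, Fin.sum_univ_three]
  unfold bd
  have e1 : (0 : Fin 3) + 1 = 1 := rfl
  have e2 : (0 : Fin 3) + 2 = 2 := rfl
  have e3 : (1 : Fin 3) + 1 = 2 := rfl
  have e4 : (1 : Fin 3) + 2 = 0 := rfl
  have e5 : (2 : Fin 3) + 1 = 0 := rfl
  have e6 : (2 : Fin 3) + 2 = 1 := rfl
  simp only [e1, e2, e3, e4, e5, e6]
  ring

omit [Fintype B] in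
/-- Existence of an integer potential with curl `1` at all whites but one. -/
theorem exists_u (w0 : W)
    (hconn : ∀ w, Relation.ReflTransGen (fun w w' => ∃ b i j, p i b = w ∧ p j b = w') w0 w) :
    ∃ u : B → Fin 3 → ℤ, ∀ w, w ≠ w0 → cobd p u w = 1 := by
  classical
  -- the coboundary as a linear map
  let L : (B → Fin 3 → ℤ) →ₗ[ℤ] (W → ℤ) :=
    { toFun := cobd p
      map_add' := by
        intro u v
        funext w
        simp only [cobd, Pi.add_apply, ← Finset.sum_add_distrib]
        exact Finset.sum_congr rfl fun i _ => by ring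
      map_smul' := by
        intro c u
        funext w
        simp only [cobd, Pi.smul_apply, smul_eq_mul, RingHom.id_apply, Finset.mul_sum]
        exact Finset.sum_congr rfl fun i _ => by ring }
  have hbasic : ∀ (b : B) (c : Fin 3),
      (Pi.single (p (c + 1) b) (1 : ℤ) - Pi.single (p (c + 2) b) (1 : ℤ) : W → ℤ) ∈
        LinearMap.range L := by
    intro b c
    refine ⟨fun b' c' => if b' = b ∧ c' = c then 1 else 0, ?_⟩
    funext w
    change cobd p (fun b' c' => if b' = b ∧ c' = c then 1 else 0) w = _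
    rw [cobd, Pi.sub_apply, Pi.single_apply, Pi.single_apply, Finset.sum_sub_distrib]
    congr 1
    · rw [Finset.sum_eq_single (c + 1)]
      · have : c + 1 + 2 = c := by
          fin_cases c <;> rfl
        rw [this]
        by_cases h : w = p (c + 1) b
        · subst h
          simp
        · rw [if_neg h, if_neg]
          rintro ⟨h1, -⟩
          exact h (by rw [← h1, Equiv.apply_symm_apply])
      · intro i _ hi
        rw [if_neg]
        rintro ⟨-, h1⟩
        apply hi
        rw [← h1]
        fin_cases i <;> rfl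
      · intro h
        exact absurd (Finset.mem_univ _) h
    · rw [Finset.sum_eq_single (c + 2)]
      · have : c + 2 + 1 = c := by
          fin_cases c <;> rfl
        rw [this]
        by_cases h : w = p (c + 2) b
        · subst h
          simp
        · rw [if_neg h, if_neg]
          rintro ⟨h1, -⟩
          exact h (by rw [← h1, Equiv.apply_symm_apply])
      · intro i _ hi
        rw [if_neg]
        rintro ⟨-, h1⟩
        apply hi
        rw [← h1]
        fin_cases i <;> rfl
      · intro h
        exact absurd (Finset.mem_univ _) h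
  have hpair : ∀ (b : B) (i j : Fin 3),
      (Pi.single (p i b) (1 : ℤ) - Pi.single (p j b) (1 : ℤ) : W → ℤ) ∈ LinearMap.range L := by
    intro b i j
    have h01 := hbasic b 2
    have h12 := hbasic b 0
    have h20 := hbasic b 1
    have e1 : (0 : Fin 3) + 1 = 1 := rfl
    have e2 : (0 : Fin 3) + 2 = 2 := rfl
    have e3 : (1 : Fin 3) + 1 = 2 := rfl
    have e4 : (1 : Fin 3) + 2 = 0 := rfl
    have e5 : (2 : Fin 3) + 1 = 0 := rfl
    have e6 : (2 : Fin 3) + 2 = 1 := rfl
    rw [e5, e6] at h01
    rw [e1, e2] at h12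
    rw [e3, e4] at h20
    have hneg : ∀ x y : W → ℤ, x - y ∈ LinearMap.range L → y - x ∈ LinearMap.range L := by
      intro x y h
      have := Submodule.neg_mem _ h
      rwa [neg_sub] at this
    fin_cases i <;> fin_cases j
    · simp
    · exact h01
    · exact hneg _ _ h20
    · exact hneg _ _ h01
    · simp
    · exact h12
    · exact h20
    · exact hneg _ _ h12
    · simp
  have hall : ∀ w, (Pi.single w (1 : ℤ) - Pi.single w0 (1 : ℤ) : W → ℤ) ∈ LinearMap.range L := by
    intro w
    induction hconn w with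
    | refl => simp
    | tail _ h ih =>
      obtain ⟨b, i, j, rfl, rfl⟩ := h
      have := Submodule.add_mem _ (hpair b j i) ih
      rwa [sub_add_sub_cancel] at this
  have hsum : (∑ w, (Pi.single w (1 : ℤ) - Pi.single w0 (1 : ℤ)) : W → ℤ) ∈
      LinearMap.range L := Submodule.sum_mem _ fun w _ => hall w
  obtain ⟨u, hu⟩ := hsum
  refine ⟨u, fun w hw => ?_⟩
  have h1 : cobd p u w = (∑ v, (Pi.single v (1 : ℤ) - Pi.single w0 (1 : ℤ)) : W → ℤ) w := by
    rw [← hu]
    rfl
  rw [h1, Finset.sum_apply]
  simp only [Pi.sub_apply, Pi.single_apply]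
  rw [Finset.sum_sub_distrib]
  simp [hw]

/-- the indicator chain of a cycle of `f ∪ g` -/
def chain (C : Finset B) (f g : B → Fin 3) (b : B) (c : Fin 3) : ℤ :=
  if b ∈ C then (if c = f b then 1 else 0) - (if c = g b then 1 else 0) else 0

omit [Fintype W] [DecidableEq W] in
theorem sum_chain (C : Finset B) (f g : B → Fin 3) (u : B → Fin 3 → ℤ) :
    ∑ b, ∑ c, u b c * chain C f g b c = ∑ b ∈ C, (u b (f b) - u b (g b)) := by
  have h1 : ∀ b, ∑ c, u b c * chain C f g b c = if b ∈ C then u b (f b) - u b (g b) else 0 := by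
    intro b
    by_cases hb : b ∈ C
    · simp only [chain, hb, if_true, mul_sub, mul_ite, mul_one, mul_zero,
        Finset.sum_sub_distrib, Finset.sum_ite_eq', Finset.mem_univ]
    · simp [chain, hb]
  rw [Finset.sum_congr rfl fun b _ => h1 b, Finset.sum_ite_mem, Finset.univ_inter]

omit [DecidableEq W] in
/-- (A) the flux formula. -/
theorem flux {C : Finset B} {f g : B → Fin 3} {n : W → ℤ} (hn : bd p n = chain C f g)
    {s : ℤ} (hs : ∀ w, n w = 0 ∨ n w = s) {w0 : W} (h0 : n w0 = 0) {u : B → Fin 3 → ℤ}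
    (hu : ∀ w, w ≠ w0 → cobd p u w = 1) :
    ∑ b ∈ C, (u b (f b) - u b (g b)) = s * (univ.filter fun w => n w ≠ 0).card := by
  rw [← sum_chain, ← hn, pairing]
  have h1 : ∀ w, n w * cobd p u w = if n w ≠ 0 then s else 0 := by
    intro w
    by_cases h : n w = 0
    · rw [h, zero_mul, if_neg (not_not.2 rfl)]
    · have hw : w ≠ w0 := fun h' => h (h' ▸ h0)
      rw [hu w hw, mul_one, if_pos h]
      exact (hs w).resolve_left h
  rw [Finset.sum_congr rfl fun w _ => h1 w, ← Finset.sum_filter, Finset.sum_const,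
    nsmul_eq_mul, mul_comm]

/-- the third colour -/
def third (f g : B → Fin 3) (b : B) : Fin 3 := -(f b + g b)

theorem f11 (j : Fin 3) : j + 1 + 1 = j + 2 := by revert j; decide
theorem f12 (j : Fin 3) : j + 1 + 2 = j := by revert j; decide
theorem f21 (j : Fin 3) : j + 2 + 1 = j := by revert j; decide
theorem f22 (j : Fin 3) : j + 2 + 2 = j + 1 := by revert j; decide
theorem fne1 (j : Fin 3) : j + 1 ≠ j := by revert j; decide
theorem fne2 (j : Fin 3) : j + 2 ≠ j := by revert j; decide
theorem fne12 (j : Fin 3) : j + 1 ≠ j + 2 := by revert j; decide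
theorem ft1 (j : Fin 3) : -(j + (j + 1)) + 1 = j := by revert j; decide
theorem ft2 (j : Fin 3) : -(j + (j + 2)) + 1 = j + 2 := by revert j; decide
theorem fsub1 (j : Fin 3) : j + 1 - j = 1 := by revert j; decide
theorem fsub2 (j : Fin 3) : j + 2 - j = 2 := by revert j; decide
theorem fcase2 (i j : Fin 3) (h : i ≠ j) : j = i + 1 ∨ j = i + 2 := by revert i j; decide

omit [Fintype B] [Fintype W] [DecidableEq W] in
/-- the sign at a black of the cycle is `s` iff its third corner is inside -/
theorem eps_eq {C : Finset B} {f g : B → Fin 3} {n : W → ℤ} (hn : bd p n = chain C f g)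
    {s : ℤ} (hs1 : s = 1 ∨ s = -1) (hs : ∀ w, n w = 0 ∨ n w = s) {b : B} (hb : b ∈ C)
    (hfg : f b ≠ g b) :
    eps (g b - f b) = if n (p (third f g b + 1) b) = 0 then -s else s := by
  have h := fun c => congrFun (congrFun hn b) c
  simp only [bd, chain, hb, if_true] at h
  unfold third
  generalize f b = x at *
  generalize g b = y at *
  have h0 := h x
  have h1 := h (x + 1)
  have h2 := h (x + 2)
  have v0 := hs (p x b)
  have v1 := hs (p (x + 1) b)
  have v2 := hs (p (x + 2) b)
  rw [f11, f12] at h1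
  rw [f21, f22] at h2
  rcases fcase2 x y hfg with rfl | rfl
  · rw [fsub1, ft1]
    rw [if_pos rfl, if_neg (fne1 x).symm] at h0
    rw [if_neg (fne1 x), if_pos rfl] at h1
    rw [if_neg (fne2 x), if_neg (fne12 x).symm] at h2
    have e : eps 1 = 1 := rfl
    rw [e]
    split_ifs with h3 <;> omega
  · rw [fsub2, ft2]
    rw [if_pos rfl, if_neg (fne2 x).symm] at h0
    rw [if_neg (fne1 x), if_neg (fne12 x)] at h1
    rw [if_neg (fne2 x), if_pos rfl] at h2
    have e : eps 2 = -1 := rfl
    rw [e]
    split_ifs with h3 <;> omega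

omit [Fintype B] [Fintype W] [DecidableEq W] in
/-- (B) the product of the signs over a cycle of length `3 + 2 inn`, `inn` = number of third
corners inside. -/
theorem prod_eps {C : Finset B} {f g : B → Fin 3} {n : W → ℤ} (hn : bd p n = chain C f g)
    {s : ℤ} (hs1 : s = 1 ∨ s = -1) (hs : ∀ w, n w = 0 ∨ n w = s)
    (hfg : ∀ b ∈ C, f b ≠ g b)
    (hk : C.card = 3 + 2 * (C.filter fun b => n (p (third f g b + 1) b) ≠ 0).card) :
    ∏ b ∈ C, eps (g b - f b) =
      -s * (-1) ^ (C.filter fun b => n (p (third f g b + 1) b) ≠ 0).card := by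
  have h1 : ∏ b ∈ C, eps (g b - f b) =
      ∏ b ∈ C, if n (p (third f g b + 1) b) ≠ 0 then s else -s := by
    refine Finset.prod_congr rfl fun b hb => ?_
    rw [eps_eq p hn hs1 hs hb (hfg b hb)]
    split_ifs <;> simp_all
  rw [h1, Finset.prod_ite, Finset.prod_const, Finset.prod_const]
  have h2 : (C.filter fun b => ¬ n (p (third f g b + 1) b) ≠ 0).card =
      3 + (C.filter fun b => n (p (third f g b + 1) b) ≠ 0).card := by
    have := Finset.card_filter_add_card_filter_not (s := C)
      (fun b => n (p (third f g b + 1) b) ≠ 0)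
    omega
  rw [h2]
  generalize (C.filter fun b => n (p (third f g b + 1) b) ≠ 0).card = k
  rcases hs1 with rfl | rfl
  · rw [one_pow, pow_add]
    norm_num
  · rw [neg_neg, one_pow]
    norm_num

/-- `L2` data for a cycle `C` of `f ∪ g`: the region cut off by the cycle, away from `w0`. -/
structure Region (w0 : W) (C : Finset B) (f g : B → Fin 3) (n : W → ℤ) (s : ℤ) : Prop where
  hn : bd p n = chain C f g
  hs1 : s = 1 ∨ s = -1
  hs : ∀ w, n w = 0 ∨ n w = s
  h0 : n w0 = 0
  hne : ∃ w, n w ≠ 0
  hk : C.card = 3 + 2 * (C.filter fun b => n (p (third f g b + 1) b) ≠ 0).card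

omit [DecidableEq W] in
/-- The planar input of Step 4: the length of the cycle is odd and the sign is right, for a
potential `u` with curl `-1` at all whites but `w0`. -/
theorem cyc {w0 : W} {C : Finset B} {f g : B → Fin 3} {n : W → ℤ} {s : ℤ}
    (R : Region p w0 C f g n s) (hfg : ∀ b ∈ C, f b ≠ g b) {u : B → Fin 3 → ℤ}
    (hu : ∀ w, w ≠ w0 → cobd p u w = -1) :
    Odd C.card ∧ 3 ≤ C.card ∧
      0 < (-1) ^ ((C.card - 3) / 2) * (∏ b ∈ C, eps (g b - f b)) *
        ∑ b ∈ C, (u b (f b) - u b (g b)) := by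
  refine ⟨?_, ?_, ?_⟩
  · rw [R.hk, Nat.odd_iff]
    omega
  · rw [R.hk]
    omega
  · have hk : (C.card - 3) / 2 = (C.filter fun b => n (p (third f g b + 1) b) ≠ 0).card := by
      have := R.hk
      omega
    have hu' : ∀ w, w ≠ w0 → cobd p (fun b c => -u b c) w = 1 := by
      intro w hw
      have h1 : cobd p (fun b c => -u b c) w = -cobd p u w := by
        rw [cobd, cobd, ← Finset.sum_neg_distrib]
        exact Finset.sum_congr rfl fun i _ => by ring
      rw [h1, hu w hw, neg_neg]
    have hA := flux p R.hn R.hs R.h0 hu'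
    have hA' : ∑ b ∈ C, (u b (f b) - u b (g b)) =
        -(s * ((univ.filter fun w => n w ≠ 0).card : ℤ)) := by
      rw [← hA, ← Finset.sum_neg_distrib]
      exact Finset.sum_congr rfl fun b _ => by ring
    have hpos : 0 < ((univ.filter fun w => n w ≠ 0).card : ℤ) := by
      obtain ⟨w, hw⟩ := R.hne
      exact_mod_cast Finset.card_pos.2 ⟨w, by simpa using hw⟩
    rw [hk, prod_eps p R.hn R.hs1 R.hs hfg R.hk, hA']
    generalize (C.filter fun b => n (p (third f g b + 1) b) ≠ 0).card = k at *
    generalize ((univ.filter fun w => n w ≠ 0).card : ℤ) = a at *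
    have h1 : (-1 : ℤ) ^ k * (-1) ^ k = 1 := by
      rw [← mul_pow]
      norm_num
    have h2 : s * s = 1 := by
      rcases R.hs1 with h | h <;> rw [h] <;> norm_num
    have h3 : (-1 : ℤ) ^ k * (-s * (-1) ^ k) * -(s * a) = a := by
      calc (-1 : ℤ) ^ k * (-s * (-1) ^ k) * -(s * a)
          = ((-1 : ℤ) ^ k * (-1) ^ k) * (s * s) * a := by ring
        _ = a := by rw [h1, h2]; ring
    rw [h3]
    exact hpos

end Vale.Agent.P039.H443
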