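import Vale.Agent.P039.Bn.Defs
import Vale.Agent.P039.H443.L3

/-! # P039-B, block L3 over `PMap`: existence of the potential `u`. -/

namespace Vale.Agent.P039.H443

open Finset Vale.Agent.P039.Bn

variable {B W V : Type} (M : PMap B W V)

/-- two whites share a black -/
def Share (w w' : W) : Prop := ∃ b i j, M.e i b = w ∧ M.e j b = w'

theorem Share.symm {w w' : W} (h : Share M w w') : Share M w' w := by
  obtain ⟨b, i, j, h1, h2⟩ := h
  exact ⟨b, j, i, h2, h1⟩

theorem rtg_symm {w w' : W} (h : Relation.ReflTransGen (Share M) w w') :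
    Relation.ReflTransGen (Share M) w' w := by
  induction h with
  | refl => exact Relation.ReflTransGen.refl
  | tail _ h ih => exact Relation.ReflTransGen.head (Share.symm M h) ih

theorem rtg_of_eqv {j : Fin 3} {x y : B}
    (h : Relation.EqvGen (fun x y => M.e (j + 1) y = M.e (j + 2) x) x y) :
    Relation.ReflTransGen (Share M) (M.e 0 x) (M.e 0 y) := by
  induction h with
  | rel x y h =>
    refine Relation.ReflTransGen.head ⟨x, 0, j + 2, rfl, rfl⟩ ?_
    exact Relation.ReflTransGen.single ⟨y, j + 1, 0, h, rfl⟩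
  | refl x => exact Relation.ReflTransGen.refl
  | symm x y _ ih => exact rtg_symm M ih
  | trans x y z _ _ ih1 ih2 => exact ih1.trans ih2

theorem rtg_all (hM : M.Conn) (w w' : W) : Relation.ReflTransGen (Share M) w w' := by
  have h1 : ∀ b b' : B, Relation.ReflTransGen (Share M) (M.e 0 b) (M.e 0 b') := by
    intro b b'
    induction hM b b' with
    | rel x y h =>
      obtain ⟨j, hj⟩ := h
      exact rtg_of_eqv M (M.exact j x y hj)
    | refl x => exact Relation.ReflTransGen.refl
    | symm x y _ ih => exact rtg_symm M ih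
    | trans x y z _ _ ih1 ih2 => exact ih1.trans ih2
  have := h1 ((M.e 0).symm w) ((M.e 0).symm w')
  rwa [Equiv.apply_symm_apply, Equiv.apply_symm_apply] at this

/-- an integer potential with curl `-1` at all whites but `w0` -/
theorem exists_u_pmap [Fintype W] (hM : M.Conn) (w0 : W) :
    ∃ u : B → Fin 3 → ℤ, ∀ w, w ≠ w0 → cobd M.e u w = -1 := by
  classical
  obtain ⟨u, hu⟩ := exists_u M.e w0 (fun w => rtg_all M hM w0 w)
  refine ⟨fun b c => -u b c, fun w hw => ?_⟩
  rw [← hu w hw, cobd, cobd, ← Finset.sum_neg_distrib]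
  exact Finset.sum_congr rfl fun i _ => by ring

end Vale.Agent.P039.H443
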