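import Vale.Agent.P039.Bn.L2.Defs
import Vale.Agent.P039.H443.L3P

/-! # P039-B, block L3 from the literal Props `T1`, `T2` of row L2. -/

namespace Vale.Agent.P039.H443

open Finset Vale.Agent.P039.Bn

variable {B W V : Type} [Fintype B] [Fintype W] [Fintype V] [DecidableEq B] [DecidableEq W]
  [DecidableEq V] (M : PMap B W V)

/-- the region of an alternating cycle -/
theorem region_of (h1 : M.T1) (h2 : M.T2) (hS : M.Sph) {f g : B → Fin 3} {S : Finset B}
    {nx : B → B} {b0 : B} (ha : M.IsAlt f g S nx) (hb0 : b0 ∉ S) (hg : M.IsMatch b0 g) :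
    ∃ (n : W → ℤ) (s : ℤ), Region M.e (M.e 0 b0) S f g n s ∧ ∀ j, n (M.e j b0) = 0 := by
  obtain ⟨s, I, hs, hI, hI0, H⟩ := h1 hS f g S nx b0 ha hb0
  have hk := h2 hS f g S nx b0 ha hb0 hg s I hs hI hI0 H
  obtain ⟨t, ht, hts⟩ : ∃ t : ℤ, (t = 1 ∨ t = -1) ∧ (t : ℚ) = s := by
    rcases hs with rfl | rfl
    · exact ⟨1, Or.inl rfl, by norm_num⟩
    · exact ⟨-1, Or.inr rfl, by norm_num⟩
  have ht0 : t ≠ 0 := by rcases ht with rfl | rfl <;> norm_num
  let n : W → ℤ := fun w => if w ∈ I then t else 0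
  have hn : bd M.e n = chain S f g := by
    funext b c
    have h := H b c
    unfold PMap.cyc at h
    have h' : ((bd M.e n b c : ℤ) : ℚ) = ((chain S f g b c : ℤ) : ℚ) := by
      simp only [bd, chain, n]
      push_cast
      rw [hts, h]
      split_ifs <;> ring
    exact_mod_cast h'
  have hn0 : ∀ w, n w ≠ 0 ↔ w ∈ I := by
    intro w
    simp only [n]
    split_ifs with h
    · exact ⟨fun _ => h, fun _ => ht0⟩
    · simp [h]
  refine ⟨n, t, ⟨hn, ht, ?_, ?_, ?_, ?_⟩, ?_⟩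
  · intro w
    simp only [n]
    split_ifs
    · exact Or.inr rfl
    · exact Or.inl rfl
  · by_contra h
    exact hI0 0 ((hn0 _).1 h)
  · obtain ⟨w, hw⟩ := hI
    exact ⟨w, (hn0 w).2 hw⟩
  · have h3 : (S.filter fun b => n (M.e (third f g b + 1) b) ≠ 0) =
        S.filter fun b => M.e (f b) b ∈ I := by
      refine Finset.filter_congr fun b hb => ?_
      rw [hn0]
      rcases fcase2 (f b) (g b) (ha.ne b hb) with h | h
      · rw [third, h, ft1]
      · rw [third, h, ft2]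
        have h4 := congrFun (congrFun hn b) (f b + 1)
        simp only [bd, chain, hb, if_true] at h4
        rw [f11, f12, h, if_neg (fne1 _), if_neg (fne12 _), sub_zero, sub_eq_zero] at h4
        rw [← hn0, ← hn0, h4]
    rw [h3, hk]
    ring
  · intro j
    by_contra h
    exact hI0 j ((hn0 _).1 h)

/-- **CYC**: the planar input of Step 4 (and the parity input of Step 3). -/
theorem cyc_pmap (h1 : M.T1) (h2 : M.T2) (hS : M.Sph) (b0 : B) :
    ∃ u : B → Fin 3 → ℤ, ∀ (f g : B → Fin 3) (S : Finset B) (nx : B → B), M.IsAlt f g S nx →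
      b0 ∉ S → M.IsMatch b0 g →
      Odd S.card ∧ 3 ≤ S.card ∧
      0 < (-1) ^ ((S.card - 3) / 2) * (∏ b ∈ S, eps (g b - f b)) *
        ∑ b ∈ S, (u b (f b) - u b (g b)) := by
  obtain ⟨u, hu⟩ := exists_u_pmap M hS.conn (M.e 0 b0)
  refine ⟨u, fun f g S nx ha hb0 hg => ?_⟩
  obtain ⟨n, s, R, -⟩ := region_of M h1 h2 hS ha hb0 hg
  exact cyc M.e R ha.ne hu

end Vale.Agent.P039.H443
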